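import Vale.Agent.P248.H917.FClosed
import Vale.Agent.P248.H917.FSymm

namespace Vale.Agent.Results.P248.FibreExchange

open Vale.Agent.P248 Vale.Agent.P248.H432 Vale.Agent.P248.H917

/-- The Mahler conjectures for bodies with homothetic fibres. Here `P` is the volume product,
`c_n = (n+1)^(n+1) / (n!)^2`, `ρ = P / c_n` (`mahlerRatio`), and `U ⊆ ℝᵖ` is a symmetric convex
body, `p ≥ 1`.
(1) Q2 holds for every convex body of `ℝⁿ` up to the factor `e^(-7(n+1)/20)`.
(2) Exchange identity: if `K ⊆ ℝⁿ` has the fibres `r(y) U` over `y ∈ ℝ^q`, and `K'` has the fibres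
`r(y) W` with another symmetric convex body `W`, then `P(K) / P(U) = P(K') / P(W)`.
(3) If Q2 holds in `ℝⁿ` up to the factor `t`, then `ρ(K) ≥ t ρ(U)` for such `K`.
(4) If `P(U) ≥ 4^p / p!`, then `ρ(K) > e^(7(p - 10 q - 84)/200)` for such `K`: the strict inequality
of Q2 if `p ≥ 10 q + 84`.
(5) If `K = -K` and `q ≤ 2`, then `P(K) / (4^n / n!) ≥ P(U) / (4^p / p!)`; for every `q` the same
holds up to the factor `t` for which Q1 holds in `ℝⁿ`.
(6) The inequality of Q1 for the class `GenSymm` of symmetric bodies of all dimensions.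
(7) Q2 with its equality case for the class `GenMahler` of convex bodies of all dimensions. -/
theorem result :
    (∀ n : ℕ, MahlerUpTo n (Real.exp (-(7 / 20 * ((n : ℝ) + 1))))) ∧
    (∀ (q p n : ℕ) (U : Set (E p)) (K : Set (E n)), 1 ≤ p → IsConvexBody U → IsSym U →
      IsConvexBody K →
      (∀ (W : Set (E p)) (K' : Set (E n)), IsConvexBody W → IsSym W →
        IsExchange q U W K K' → IsConvexBody K' ∧
          volumeProduct K * volumeProduct W = volumeProduct K' * volumeProduct U) ∧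
      (FibredBy q U K → ∀ t : ℝ, MahlerUpTo n t →
        ENNReal.ofReal t * mahlerRatio U ≤ mahlerRatio K) ∧
      (FibredBy q U K → ENNReal.ofReal (4 ^ p / (p.factorial : ℝ)) ≤ volumeProduct U →
        ENNReal.ofReal (Real.exp (7 / 200 * ((p : ℝ) - 10 * q - 84))) < mahlerRatio K) ∧
      (CentrallyFibredBy q U K → IsSym K → ∀ t : ℝ,
        q ≤ 2 ∧ t = 1 ∨ SymmMahlerUpTo n t →
        ENNReal.ofReal (t * (4 ^ n / (n.factorial : ℝ))) * volumeProduct U ≤
          ENNReal.ofReal (4 ^ p / (p.factorial : ℝ)) * volumeProduct K)) ∧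
    (∀ (n : ℕ) (K : Set (E n)), GenSymm n K → IsConvexBody K ∧ IsSym K ∧
      ENNReal.ofReal (4 ^ n / (n.factorial : ℝ)) ≤ volumeProduct K) ∧
    (∀ (n : ℕ) (K : Set (E n)), GenMahler n K → IsConvexBody K ∧ MahlerFor K) := by
  refine ⟨fun n K hK => near_sharp175 hK, fun q p n U K hp hU hs hK =>
    ⟨fun W K' hW hsW hX => exch_eq hp hU hs hW hsW hK hX, fun hF t ht => law_q2 hp hU hs hK hF ht,
      fun hF hq => ratio_fib hp hU hs hq hK hF, fun hF hneg t ht => ?_⟩,
    fun n K hK => (genSymm hK).2, fun n K hK => ?_⟩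
  · rcases ht with ⟨hq, rfl⟩ | ht
    · rw [one_mul]
      exact law_q1 hq hp hU hs hK hneg hF
    · exact law_symm hp hU hs hK hneg hF ht
  · obtain ⟨h1, h2, h3⟩ := genMahler hK
    rw [one_le_ratio_iff] at h2
    rw [ratio_eq_one_iff] at h3
    exact ⟨h1, h2, h3⟩

end Vale.Agent.Results.P248.FibreExchange
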