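import Vale.Agent.P248.Bdl.B1
import Vale.Agent.P248.Bdl.B3
import Vale.Agent.P248.H432.V5.Closed
import Vale.Agent.P248.H432.Constant
import Vale.Agent.P248.H432.Near

namespace Vale.Agent.Results.P248.JoinsProducts

open MeasureTheory Filter Vale.Agent.P248 Vale.Agent.P248.H432
open Vale.Agent.P248.H917 (IsSym IsExchange FibredBy)
open Vale.Agent.P248.H432.V5 (IsSignInv IsLarge IsSantalo)

/-- Statements on the Mahler conjectures. Here `P` is the volume product,
`c_n = (n+1)^(n+1) / (n!)^2` and `ρ = P / c_n` (`mahlerRatio`), so that Q2 says `ρ ≥ 1`, with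
equality exactly for simplices.
(1) The inequality of Q2 holds for every convex body in every dimension up to the factor
`e^(-7(n+1)/20)`;
(2) Q2 holds in dimension three, with its equality case;
(3) a stability estimate in dimension three;
(4) exact laws: `ρ` is multiplicative under joins and strictly supermultiplicative under
products;
(5) `P` does not decrease under polarity at the centroid;
(6) for gluings and fibre sums `ρ(K) ≥ min (ρ(K₁), ρ(K₂))`, strictly if `ρ(K₁) ≠ ρ(K₂)`;
(7) if `K'` arises from `K` by the exchange of the fibre `U` for the fibre `W`, where `U` and `W`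
have Santaló point `0` (symmetric bodies, for instance), then `P(K) / P(U) = P(K') / P(W)`; if the
fibres of `K` over a line are homothets of such a body `U`, then `ρ(K) ≥ ρ(U)`;
(8) `ρ(K) > 1` for every convex body `K ⊆ ℝⁿ` invariant (in some affine frame) under the sign
changes of `n - 1` coordinates, `n ≥ 5`, or of `n - 2` coordinates, `n ≥ 14`, or of at least
`(10 n + 4) / 11` coordinates;
(9) Q2 holds, with its equality case, in every dimension for the class `V5.Generated`: the bodies
generated from the bodies of dimension at most three, polytopes with at most `n + 2` vertices,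
locally anti-blocking bodies, the bodies of (8), bodies with a big block of rotations and those
of (10) by the operations of (4)-(7);
(10) the inequality `P(K) ≥ 4^n / n!` of Q1 holds in every dimension for the class
`V5.SymGenerated`, generated from unconditional bodies, bodies with cube symmetries in all
coordinates but two and bodies with big blocks of rotations by products, polarity, gluings, fibre
sums, homothetic fibres over lines and planes, and exchange;
(11) in dimension `N` Q2 implies (with equality cases) Q2 in all dimensions `n ≤ N`;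
(12) its inequality in all dimensions follows from its validity up to factors `e^(-ε n)` in
infinitely many dimensions;
(13) there is one sharp asymptotic constant, and it is `1` iff the inequality holds everywhere. -/
theorem result :
    (∀ n : ℕ, MahlerUpTo n (Real.exp (-(7 / 20 * ((n : ℝ) + 1))))) ∧
    (∀ K : Set (E 3), IsConvexBody K → MahlerFor K) ∧
    (∃ C : ℝ, 0 < C ∧ ∀ (K : Set (E 3)) (ε : ℝ), IsConvexBody K → 0 ≤ ε →
      volumeProduct K ≤ ENNReal.ofReal (simplexVal 3 * (1 + ε)) →
      ∃ (T : Set (E 3)) (g : E 3), IsSimplex T ∧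
        g ∈ T ∧ T ⊆ K ∧ K ⊆ (fun x => g + (1 + C * ε) • (x - g)) '' T) ∧
    (∀ (m n N : ℕ) (K : Set (E m)) (L : Set (E n)) (M : Set (E N)),
      IsConvexBody K → IsConvexBody L →
      (JoinOf K L M → IsConvexBody M ∧ mahlerRatio M = mahlerRatio K * mahlerRatio L ∧
        (IsSimplex M ↔ IsSimplex K ∧ IsSimplex L)) ∧
      (ProductOf K L M → IsConvexBody M ∧
        volumeProduct M = ENNReal.ofReal ((m.factorial : ℝ) * n.factorial / (m + n).factorial) *
          (volumeProduct K * volumeProduct L) ∧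
        (0 < m → 0 < n → mahlerRatio K * mahlerRatio L < mahlerRatio M))) ∧
    (∀ (n : ℕ) (K : Set (E n)), IsConvexBody K →
      IsConvexBody (centroidPolar K) ∧ volumeProduct K ≤ volumeProduct (centroidPolar K)) ∧
    (∀ (n : ℕ) (K K₁ K₂ : Set (E n)), IsConvexBody K₁ → IsConvexBody K₂ →
      (Convex ℝ K ∧ IsGluing K K₁ K₂) ∨ IsFibreSum K K₁ K₂ →
      IsConvexBody K ∧ min (mahlerRatio K₁) (mahlerRatio K₂) ≤ mahlerRatio K ∧
      (mahlerRatio K₁ ≠ mahlerRatio K₂ →
        min (mahlerRatio K₁) (mahlerRatio K₂) < mahlerRatio K)) ∧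
    (∀ (q p n : ℕ) (U W : Set (E p)) (K K' : Set (E n)), 1 ≤ p → IsConvexBody U → IsSantalo U →
      IsConvexBody W → IsSantalo W → IsConvexBody K → IsExchange q U W K K' →
      IsConvexBody K' ∧ volumeProduct K * volumeProduct W = volumeProduct K' * volumeProduct U) ∧
    (∀ (p n : ℕ) (U : Set (E p)) (K : Set (E n)), 1 ≤ p → IsConvexBody U → IsSantalo U →
      IsConvexBody K → FibredBy 1 U K → mahlerRatio U ≤ mahlerRatio K) ∧
    (∀ (n : ℕ) (K : Set (E n)) (T : Finset (Fin n)), IsConvexBody K → IsSignInv T K →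
      IsLarge T → 1 < mahlerRatio K) ∧
    (∀ (n : ℕ) (K : Set (E n)), V5.Generated n K → IsConvexBody K ∧ MahlerFor K) ∧
    (∀ (n : ℕ) (K : Set (E n)), V5.SymGenerated n K → IsConvexBody K ∧
      ENNReal.ofReal (4 ^ n / (n.factorial : ℝ)) ≤ volumeProduct K) ∧
    (∀ N : ℕ, (∀ K : Set (E N), IsConvexBody K → MahlerFor K) →
      ∀ n ≤ N, ∀ K : Set (E n), IsConvexBody K → MahlerFor K) ∧
    ((∀ ε : ℝ, 0 < ε → ∃ᶠ n : ℕ in atTop, MahlerUpTo n (Real.exp (-(ε * n)))) →
      ∀ n : ℕ, MahlerUpTo n 1) ∧
    ∃ lam : ℝ, Real.exp (-(7 / 20)) ≤ lam ∧ lam ≤ 1 ∧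
      (∀ n : ℕ, MahlerUpTo n (lam ^ (n + 1))) ∧
      (∀ μ : ℝ, lam < μ → ∀ᶠ n : ℕ in atTop, ¬ MahlerUpTo n (μ ^ (n + 1))) ∧
      (lam = 1 ↔ ∀ n : ℕ, MahlerUpTo n 1) := by
  have h : simplexVal 3 = 64 / 9 := by
    norm_num [simplexVal, Nat.factorial]
  have h1' : ∀ n : ℕ, MahlerUpTo n 1 ↔ ∀ K : Set (E n), IsConvexBody K →
      ENNReal.ofReal (simplexVal n) ≤ volumeProduct K := by
    intro n
    unfold MahlerUpTo
    rw [one_mul]
  refine ⟨fun n K hK => near_sharp175 hK, Q2_iff.1 Q2_three, by rw [h]; exact mahler_three_stable,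
    fun m n N K L M hK hL => ⟨fun hj => ?_, fun hp => ?_⟩,
    fun n K hK => ⟨polarAt_body hK (centroid_mem hK), volumeProduct_le_polar hK⟩,
    fun n K K₁ K₂ hK₁ hK₂ hg => ?_,
    fun q p n U W K K' hp hU hsU hW hsW hK hX => V5.exch_sant hp hU hsU hW hsW hK hX,
    fun p n U K hp hU hsU hK hF => V5.line_law hp hU hsU hK hF,
    fun n K T hK hT hb => S.sign_big hK hT hb,
    fun n K hK => ?_, fun n K hK => V5.symGenerated hK, fun N hN n hn => ?_, fun hε n => ?_, ?_⟩
  · replace hj := hj.isJoin
    exact ⟨hj.body hK hL, hj.ratio_eq hK hL, fun hM => ⟨hj.simplex_left hK hL hM,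
      hj.symm.simplex_left hL hK hM⟩, fun hs => hj.isSimplex hs.1 hs.2⟩
  · replace hp := hp.isProduct
    exact ⟨hp.body hK hL, hp.volumeProduct_eq hK hL, fun hm hn => hp.ratio_lt hK hL hm hn⟩
  · rcases hg with ⟨hcv, hg⟩ | hg
    · exact hg.law hcv hK₁ hK₂
    · exact hg.law hK₁ hK₂
  · obtain ⟨h1, h2, h3⟩ := V5.generated hK
    rw [one_le_ratio_iff] at h2
    rw [ratio_eq_one_iff] at h3
    exact ⟨h1, h2, h3⟩
  · exact Q2_iff.1 (Q2_down (Q2_iff.2 hN) hn)
  · exact (h1' n).2 fun K hK => tensor hε hK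
  · have hA : Adm (Real.exp (-(7 / 20))) := by
      intro n K hK
      have h1 := near_sharp175 hK
      rw [← Real.exp_nat_mul]
      push_cast
      have e : ((n : ℝ) + 1) * -(7 / 20) = -(7 / 20 * ((n : ℝ) + 1)) := by ring
      rw [e]
      exact h1
    obtain ⟨lam, h1, h2, h3, h4, h5⟩ := exists_constant (Real.exp_pos _) hA
    refine ⟨lam, h1, h2, fun n => h3 n, fun μ hμ => ?_, h5.trans ?_⟩
    · obtain ⟨N, hN⟩ := h4 μ hμ
      filter_upwards [eventually_ge_atTop N] with n hn hc
      obtain ⟨K, hK, hlt⟩ := hN n hn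
      exact absurd (hc K hK) (not_le.2 hlt)
    · exact forall_congr' fun n => (h1' n).symm

end Vale.Agent.Results.P248.JoinsProducts
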