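import Vale.Agent.P248.Bdl.B1
import Vale.Agent.P248.Bdl.B3
import Vale.Agent.P248.H432.Closed
import Vale.Agent.P248.H432.Near
import Vale.Agent.P248.H432.Q1Rot

/-!
# P248: Mahler's conjecture in dimension three, for bodies with a large block of rotations, and
for joins and products in every dimension
-/

namespace Vale.Agent.Results.P248.RotationsAndJoins

open Vale.Agent.P248 Vale.Agent.P248.H432

/-- `K` is invariant, in some affine frame `(p, b)`, under all rotations of the coordinates with
index in `T`: a point whose coordinates outside `T` are those of a point `x` of `K`, and whose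
coordinates in `T` have the same sum of squares as those of `x`, lies in `K`. -/
def RotationBody {n : ℕ} (T : Finset (Fin n)) (K : Set (EuclideanSpace ℝ (Fin n))) : Prop :=
  ∃ (p : EuclideanSpace ℝ (Fin n)) (b : Module.Basis (Fin n) ℝ (EuclideanSpace ℝ (Fin n))),
    ∀ x ∈ K, ∀ y : EuclideanSpace ℝ (Fin n),
      (∀ j, j ∉ T → b.repr (y - p) j = b.repr (x - p) j) →
      ∑ j ∈ T, b.repr (y - p) j ^ 2 = ∑ j ∈ T, b.repr (x - p) j ^ 2 → y ∈ K

/-- The convex bodies obtained by repeated joins and products from the convex bodies of dimension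
at most three, and from the locally anti-blocking bodies and the bodies invariant under the
rotations of at least `(n + 5) / 2` coordinates in any dimension `n`. -/
inductive Built : ∀ n : ℕ, Set (EuclideanSpace ℝ (Fin n)) → Prop
  | low {n : ℕ} {K : Set (EuclideanSpace ℝ (Fin n))} : n ≤ 3 → IsConvexBody K → Built n K
  | lab {n : ℕ} {K : Set (EuclideanSpace ℝ (Fin n))} : IsConvexBody K →
      IsLocallyAntiBlocking K → Built n K
  | rot {n : ℕ} {K : Set (EuclideanSpace ℝ (Fin n))} {T : Finset (Fin n)} : IsConvexBody K →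
      RotationBody T K → n + 5 ≤ 2 * T.card → Built n K
  | join {m n N : ℕ} {K : Set (EuclideanSpace ℝ (Fin m))} {L : Set (EuclideanSpace ℝ (Fin n))}
      {M : Set (EuclideanSpace ℝ (Fin N))} : Built m K → Built n L → JoinOf K L M → Built N M
  | prod {m n N : ℕ} {K : Set (EuclideanSpace ℝ (Fin m))} {L : Set (EuclideanSpace ℝ (Fin n))}
      {M : Set (EuclideanSpace ℝ (Fin N))} : Built m K → Built n L → ProductOf K L M → Built N M

theorem RotationBody.isRotInv {n : ℕ} {T : Finset (Fin n)} {K : Set (EuclideanSpace ℝ (Fin n))}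
    (h : RotationBody T K) : IsRotInv (fun _ : Fin 1 => T) K := by
  obtain ⟨p, b, h⟩ := h
  exact ⟨p, b, fun _ => h⟩

theorem Built.generated {n : ℕ} {K : Set (EuclideanSpace ℝ (Fin n))} (h : Built n K) :
    Generated n K := by
  induction h with
  | low h1 h2 => exact .low h1 h2
  | lab h1 h2 => exact .lab h1 h2
  | rot h1 h2 h3 =>
    exact .rot h1 (fun i j hij => absurd (Subsingleton.elim i j) hij) h2.isRotInv
      (Or.inl ⟨0, h3⟩)
  | join _ _ h3 h4 h5 => exact .join h4 h5 h3
  | prod _ _ h3 h4 h5 => exact .prod h4 h5 h3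

/-- Statements on the general Mahler conjecture `P(K) ≥ (n+1)^(n+1) / (n!)^2`:
(1) it holds for every convex body in every dimension up to the factor `e^(-7(n+1)/20)`;
(2) it holds for every convex body in dimension three, with equality exactly for simplices;
(3) a stability estimate in dimension three;
(4) it holds, with equality exactly for simplices, in every dimension for locally anti-blocking
bodies in an affine frame;
(5) it holds with strict inequality for every convex body of dimension `n` invariant under the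
rotations of at least `(n+5)/2` coordinates (nothing is assumed on the other coordinates), and
`P(K) > 4^n / n!`, the bound of the symmetric conjecture, if there are at least `(10n+40)/11`
such coordinates;
(6) if it holds with its equality case for `K` and for `L`, then also for every join and for every
product of `K` and `L`; so it holds with its equality case, in every dimension, for all bodies
obtained by joins and products from the bodies of dimension at most three and those of (4), (5);
(7) if it holds with its equality case in dimension `N`, then also in every dimension `n ≤ N`. -/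
theorem result :
    (∀ (n : ℕ) (K : Set (EuclideanSpace ℝ (Fin n))), IsConvexBody K →
      ENNReal.ofReal (Real.exp (-(7 / 20 * ((n : ℝ) + 1))) *
        (((n : ℝ) + 1) ^ (n + 1) / (n.factorial : ℝ) ^ 2)) ≤ volumeProduct K) ∧
    (∀ K : Set (EuclideanSpace ℝ (Fin 3)), IsConvexBody K →
      ENNReal.ofReal (((3 : ℝ) + 1) ^ (3 + 1) / (Nat.factorial 3 : ℝ) ^ 2) ≤ volumeProduct K ∧
      (volumeProduct K = ENNReal.ofReal (((3 : ℝ) + 1) ^ (3 + 1) / (Nat.factorial 3 : ℝ) ^ 2) ↔
        IsSimplex K)) ∧
    (∃ C : ℝ, 0 < C ∧ ∀ (K : Set (EuclideanSpace ℝ (Fin 3))) (ε : ℝ), IsConvexBody K → 0 ≤ ε →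
      volumeProduct K ≤
        ENNReal.ofReal (((3 : ℝ) + 1) ^ (3 + 1) / (Nat.factorial 3 : ℝ) ^ 2 * (1 + ε)) →
      ∃ (T : Set (EuclideanSpace ℝ (Fin 3))) (g : EuclideanSpace ℝ (Fin 3)), IsSimplex T ∧
        g ∈ T ∧ T ⊆ K ∧ K ⊆ (fun x => g + (1 + C * ε) • (x - g)) '' T) ∧
    (∀ (n : ℕ) (K : Set (EuclideanSpace ℝ (Fin n))), IsConvexBody K → IsLocallyAntiBlocking K →
      MahlerFor K) ∧
    (∀ (n : ℕ) (K : Set (EuclideanSpace ℝ (Fin n))) (T : Finset (Fin n)), IsConvexBody K →
      RotationBody T K →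
      (n + 5 ≤ 2 * T.card →
        ENNReal.ofReal (((n : ℝ) + 1) ^ (n + 1) / (n.factorial : ℝ) ^ 2) < volumeProduct K) ∧
      (10 * n + 40 ≤ 11 * T.card →
        ENNReal.ofReal (4 ^ n / (n.factorial : ℝ)) < volumeProduct K)) ∧
    ((∀ (m n N : ℕ) (K : Set (EuclideanSpace ℝ (Fin m))) (L : Set (EuclideanSpace ℝ (Fin n)))
        (M : Set (EuclideanSpace ℝ (Fin N))), IsConvexBody K → IsConvexBody L → MahlerFor K →
        MahlerFor L → JoinOf K L M ∨ ProductOf K L M → IsConvexBody M ∧ MahlerFor M) ∧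
      ∀ (n : ℕ) (K : Set (EuclideanSpace ℝ (Fin n))), Built n K → IsConvexBody K ∧ MahlerFor K) ∧
    (∀ N : ℕ, (∀ K : Set (EuclideanSpace ℝ (Fin N)), IsConvexBody K → MahlerFor K) →
      ∀ n ≤ N, ∀ K : Set (EuclideanSpace ℝ (Fin n)), IsConvexBody K → MahlerFor K) := by
  have h : ((3 : ℝ) + 1) ^ (3 + 1) / (Nat.factorial 3 : ℝ) ^ 2 = 64 / 9 := by
    norm_num [Nat.factorial]
  rw [h]
  refine ⟨fun n K hK => near_sharp175 hK, fun K hK => mahler_three hK, mahler_three_stable,
    fun n K hK hL => lab_full hK hL,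
    fun n K T hK hT => ⟨fun hc => ?_, fun hc => q1_rot hK hT.isRotInv hc⟩,
    ⟨fun m n N K L M hK hL h1 h2 hM => ?_, fun n K hK => ?_⟩,
    fun N hN n hn => Q2_iff.1 (Q2_down (Q2_iff.2 hN) hn)⟩
  · have h1 := rot_big hK (fun i j hij => absurd (Subsingleton.elim i j) hij) hT.isRotInv
      (Or.inl ⟨0, hc⟩)
    have h2 := one_le_ratio_iff.1 h1.le
    refine lt_of_le_of_ne h2 fun e => h1.ne' (ratio_eq_one_iff.2 e.symm)
  · have g1 : 1 ≤ mahlerRatio K ∧ (mahlerRatio K = 1 ↔ IsSimplex K) :=
      ⟨one_le_ratio_iff.2 h1.1, ratio_eq_one_iff.trans h1.2⟩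
    have g2 : 1 ≤ mahlerRatio L ∧ (mahlerRatio L = 1 ↔ IsSimplex L) :=
      ⟨one_le_ratio_iff.2 h2.1, ratio_eq_one_iff.trans h2.2⟩
    have h3 : ∀ {k : ℕ} {S : Set (EuclideanSpace ℝ (Fin k))}, IsConvexBody S ∧
        (1 ≤ mahlerRatio S ∧ (mahlerRatio S = 1 ↔ IsSimplex S)) → IsConvexBody S ∧ MahlerFor S :=
      fun h => ⟨h.1, one_le_ratio_iff.1 h.2.1, ratio_eq_one_iff.symm.trans h.2.2⟩
    rcases hM with hj | hp
    · exact h3 ⟨hj.isJoin.body hK hL, hj.isJoin.ratio_iff hK hL g1.1 g1.2 g2.1 g2.2⟩
    · exact h3 ⟨hp.isProduct.body hK hL, hp.isProduct.ratio_iff hK hL g1.1 g1.2 g2.1 g2.2⟩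
  · obtain ⟨h1, h2, h3⟩ := generated hK.generated
    rw [one_le_ratio_iff] at h2
    rw [ratio_eq_one_iff] at h3
    exact ⟨h1, h2, h3⟩

end Vale.Agent.Results.P248.RotationsAndJoins
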