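import Vale.Agent.P248.Bdl.B1
import Vale.Agent.P248.Bdl.B3
import Vale.Agent.P248.H432.V6.Closed
import Vale.Agent.P248.H432.Constant
import Vale.Agent.P248.H432.Near

namespace Vale.Agent.Results.P248.SantaloFibres

open MeasureTheory Filter Vale.Agent.P248 Vale.Agent.P248.H432
open Vale.Agent.P248.H917 (IsSym IsExchange FibredBy)
open Vale.Agent.P248.H432.V5 (IsSantalo)
open Vale.Agent.P248.H432.V6 (IsSignInv IsLarge LabFibredBy)

/-- Statements on the Mahler conjectures. Here `P` is the volume product,
`c_n = (n+1)^(n+1) / (n!)^2` and `ρ = P / c_n` (`mahlerRatio`), so that Q2 says `ρ ≥ 1`, with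
equality exactly for simplices.
(1) The inequality of Q2 holds for every convex body in every dimension up to the factor
`e^(-7(n+1)/20)`;
(2) Q2 holds in dimension three, with its equality case;
(3) exact laws: `ρ` is multiplicative under joins and strictly supermultiplicative under
products;
(4) `P` does not decrease under polarity at the centroid;
(5) for gluings and fibre sums `ρ(K) ≥ min (ρ(K₁), ρ(K₂))`, strictly if `ρ(K₁) ≠ ρ(K₂)`;
(6) the exchange inequality: if `K'` arises from `K` by the exchange of the fibre `U` for the fibre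
`W`, where `U` has Santaló point `0` (a symmetric body, for instance) and `W` is any convex body
containing `0`, then `P(K) / P(U) ≥ P(K') / P(W)`, with equality if `W` has Santaló point `0` as
well; if the fibres of `K` over a line, or over a locally anti-blocking base (setting a coordinate
of the base point to `0` never makes the fibre smaller), are homothets of such a body `U`, then
`ρ(K) ≥ ρ(U)`;
(7) `ρ(K) > 1` for every convex body `K ⊆ ℝⁿ` invariant (in some affine frame) under the sign
changes of `n - 1` coordinates, `n ≥ 5`, or of `n - 2` coordinates, `n ≥ 14`, or of at least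
`(10 n + 4) / 11` coordinates;
(8) Q2 holds, with its equality case, in every dimension for the class `V6.Generated`: the bodies
generated from the bodies of dimension at most three, polytopes with at most `n + 2` vertices,
locally anti-blocking bodies, the bodies of (7), bodies with a big block of rotations, those of
(9) and the bodies `K` inside a body `V` of (9) with `c_n |V| < (4^n / n!) |K|`, by the
operations of (3)-(6);
(9) the inequality `P(K) ≥ 4^n / n!` of Q1 holds in every dimension for the class
`V6.SymGenerated`, generated from unconditional bodies, bodies with cube symmetries in all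
coordinates but two and bodies with big blocks of rotations by products, polarity, gluings, fibre
sums, homothetic fibres over lines and planes, and exchange of the fibre;
(10) in dimension `N` Q2 implies (with equality cases) Q2 in all dimensions `n ≤ N`;
(11) there is one sharp asymptotic constant, and it is `1` iff the inequality of Q2 holds in all
dimensions. -/
theorem result :
    (∀ n : ℕ, MahlerUpTo n (Real.exp (-(7 / 20 * ((n : ℝ) + 1))))) ∧
    (∀ K : Set (E 3), IsConvexBody K → MahlerFor K) ∧
    (∀ (m n N : ℕ) (K : Set (E m)) (L : Set (E n)) (M : Set (E N)),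
      IsConvexBody K → IsConvexBody L →
      (JoinOf K L M → IsConvexBody M ∧ mahlerRatio M = mahlerRatio K * mahlerRatio L ∧
        (IsSimplex M ↔ IsSimplex K ∧ IsSimplex L)) ∧
      (ProductOf K L M → IsConvexBody M ∧
        volumeProduct M = ENNReal.ofReal ((m.factorial : ℝ) * n.factorial / (m + n).factorial) *
          (volumeProduct K * volumeProduct L) ∧
        (0 < m → 0 < n → mahlerRatio K * mahlerRatio L < mahlerRatio M))) ∧
    (∀ (n : ℕ) (K : Set (E n)), IsConvexBody K →
      IsConvexBody (centroidPolar K) ∧ volumeProduct K ≤ volumeProduct (centroidPolar K)) ∧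
    (∀ (n : ℕ) (K K₁ K₂ : Set (E n)), IsConvexBody K₁ → IsConvexBody K₂ →
      (Convex ℝ K ∧ IsGluing K K₁ K₂) ∨ IsFibreSum K K₁ K₂ →
      IsConvexBody K ∧ min (mahlerRatio K₁) (mahlerRatio K₂) ≤ mahlerRatio K ∧
      (mahlerRatio K₁ ≠ mahlerRatio K₂ →
        min (mahlerRatio K₁) (mahlerRatio K₂) < mahlerRatio K)) ∧
    (∀ (q p n : ℕ) (U W : Set (E p)) (K K' : Set (E n)), 1 ≤ p → IsConvexBody U → IsSantalo U →
      IsConvexBody W → 0 ∈ W → IsConvexBody K → IsExchange q U W K K' → IsConvexBody K' ∧
      volumeProduct K' * volumeProduct U ≤ volumeProduct K * volumeProduct W ∧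
      (IsSantalo W → volumeProduct K' * volumeProduct U = volumeProduct K * volumeProduct W)) ∧
    (∀ (q p n : ℕ) (U : Set (E p)) (K : Set (E n)), 1 ≤ p → IsConvexBody U → IsSantalo U →
      IsConvexBody K → FibredBy 1 U K ∨ LabFibredBy q U K → mahlerRatio U ≤ mahlerRatio K) ∧
    (∀ (n : ℕ) (K : Set (E n)) (T : Finset (Fin n)), IsConvexBody K → IsSignInv T K →
      IsLarge T → 1 < mahlerRatio K) ∧
    (∀ (n : ℕ) (K : Set (E n)), V6.Generated n K → IsConvexBody K ∧ MahlerFor K) ∧
    (∀ (n : ℕ) (K : Set (E n)), V6.SymGenerated n K → IsConvexBody K ∧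
      ENNReal.ofReal (4 ^ n / (n.factorial : ℝ)) ≤ volumeProduct K) ∧
    (∀ N : ℕ, (∀ K : Set (E N), IsConvexBody K → MahlerFor K) →
      ∀ n ≤ N, ∀ K : Set (E n), IsConvexBody K → MahlerFor K) ∧
    ∃ lam : ℝ, Real.exp (-(7 / 20)) ≤ lam ∧ lam ≤ 1 ∧
      (∀ n : ℕ, MahlerUpTo n (lam ^ (n + 1))) ∧
      (∀ μ : ℝ, lam < μ → ∀ᶠ n : ℕ in atTop, ¬ MahlerUpTo n (μ ^ (n + 1))) ∧
      (lam = 1 ↔ ∀ n : ℕ, MahlerUpTo n 1) := by
  have h1' : ∀ n : ℕ, MahlerUpTo n 1 ↔ ∀ K : Set (E n), IsConvexBody K →
      ENNReal.ofReal (simplexVal n) ≤ volumeProduct K := by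
    intro n
    unfold MahlerUpTo
    rw [one_mul]
  refine ⟨fun n K hK => near_sharp175 hK, Q2_iff.1 Q2_three,
    fun m n N K L M hK hL => ⟨fun hj => ?_, fun hp => ?_⟩,
    fun n K hK => ⟨polarAt_body hK (centroid_mem hK), volumeProduct_le_polar hK⟩,
    fun n K K₁ K₂ hK₁ hK₂ hg => ?_,
    fun q p n U W K K' hp hU hsU hW hW0 hK hX =>
      ⟨(V6.exch_gen hp hU hsU hW hW0 hK hX).1, (V6.exch_gen hp hU hsU hW hW0 hK hX).2,
        fun hsW => (V5.exch_sant hp hU hsU hW hsW hK hX).2.symm⟩,
    fun q p n U K hp hU hsU hK hF =>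
      hF.elim (V5.line_law hp hU hsU hK) (V6.lab_law hp hU hsU hK),
    fun n K T hK hT hb => S.sign_big hK hT hb,
    fun n K hK => ?_, fun n K hK => V6.symGenerated hK, fun N hN n hn => ?_, ?_⟩
  · replace hj := hj.isJoin
    exact ⟨hj.body hK hL, hj.ratio_eq hK hL, fun hM => ⟨hj.simplex_left hK hL hM,
      hj.symm.simplex_left hL hK hM⟩, fun hs => hj.isSimplex hs.1 hs.2⟩
  · replace hp := hp.isProduct
    exact ⟨hp.body hK hL, hp.volumeProduct_eq hK hL, fun hm hn => hp.ratio_lt hK hL hm hn⟩
  · rcases hg with ⟨hcv, hg⟩ | hg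
    · exact hg.law hcv hK₁ hK₂
    · exact hg.law hK₁ hK₂
  · obtain ⟨h1, h2, h3⟩ := V6.generated hK
    rw [one_le_ratio_iff] at h2
    rw [ratio_eq_one_iff] at h3
    exact ⟨h1, h2, h3⟩
  · exact Q2_iff.1 (Q2_down (Q2_iff.2 hN) hn)
  · have hA : Adm (Real.exp (-(7 / 20))) := by
      intro n K hK
      have h1 := near_sharp175 hK
      rw [← Real.exp_nat_mul]
      push_cast
      have e : ((n : ℝ) + 1) * -(7 / 20) = -(7 / 20 * ((n : ℝ) + 1)) := by ring
      rw [e]
      exact h1
    obtain ⟨lam, h1, h2, h3, h4, h5⟩ := exists_constant (Real.exp_pos _) hA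
    refine ⟨lam, h1, h2, fun n => h3 n, fun μ hμ => ?_, h5.trans ?_⟩
    · obtain ⟨N, hN⟩ := h4 μ hμ
      filter_upwards [eventually_ge_atTop N] with n hn hc
      obtain ⟨K, hK, hlt⟩ := hN n hn
      exact absurd (hc K hK) (not_le.2 hlt)
    · exact forall_congr' fun n => (h1' n).symm

end Vale.Agent.Results.P248.SantaloFibres
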